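import Vale.Agent.Lib.P302.helper49.Perfect

/-!
The triple-matching refuter of `helper49` extended by one more pruning rule (the sub-instance
rule): a search node is closed as soon as its residual instance is, type by type, contained in
an instance that is already known to have fewer disjoint fitting triples than required.
-/

namespace Vale.Agent.Lib.P302.helper92

open Vale.Agent.Lib.P302.helper49

/-- `subT ts R` holds iff the two type lists carry the same lengths in the same order and every
multiplicity of `ts` is at most the corresponding multiplicity of `R`. -/
def subT : List (ℕ × ℕ) → List (ℕ × ℕ) → Bool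
  | [], _ => true
  | _ :: _, [] => false
  | (s, n) :: r, (s', n') :: r' => Nat.beq s s' && (Nat.ble n n' && subT r r')

theorem subT_le : ∀ (ts R : List (ℕ × ℕ)), subT ts R = true → items ts ≤ items R
  | [], R => fun _ => by simp
  | _ :: _, [] => fun h => by simp [subT] at h
  | (s, n) :: r, (s', n') :: r' => fun h => by
    simp only [subT, Bool.and_eq_true, Nat.beq_eq, Nat.ble_eq] at h
    obtain ⟨rfl, hn, hr⟩ := h
    rw [items_cons, items_cons]
    exact add_le_add (Multiset.replicate_le_replicate s |>.mpr hn) (subT_le r r' hr)

/-- Refutation of the existence of `T` pairwise disjoint triples of items of `ts`, each of total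
length at most `L`; the types must be in strictly decreasing order of length.  `ws` are covering
weights, `doms` are pairs `(R, T₀)` of an instance `R` (aligned with the types of `ts`) and a
number `T₀` such that `R` has no `T₀` disjoint fitting triples. -/
def refuteD (L : ℕ) (ws : List (List ℕ × ℕ)) (doms : List (List (ℕ × ℕ) × ℕ)) :
    ℕ → List (ℕ × ℕ) → ℕ → Bool
  | 0, _, _ => false
  | fuel + 1, ts, T =>
      match T with
      | 0 => false
      | T' + 1 =>
          doms.any (fun d => Nat.ble d.2 (T' + 1) && subT ts d.1) ||
          (ws.any (fun wd => Nat.blt (dotT wd.1 ts) ((T' + 1) * wd.2)) ||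
          force (total ts) (fun n =>
            bif Nat.blt n (3 * (T' + 1)) then true
            else
              match takeFirst ts with
              | none => true
              | some (a, ts') =>
                  bif Nat.blt (3 * (T' + 1)) n then refuteD L ws doms fuel ts' (T' + 1)
                  else goY L a (fun res => refuteD L ws doms fuel res T') [] ts'))

theorem tripleMatch_mono {L : ℕ} {M M' : Multiset ℕ} {T T' : ℕ} (h : TripleMatch L M T)
    (hM : M ≤ M') (hT : T' ≤ T) : TripleMatch L M' T' := by
  obtain ⟨B, hBc, hBt, hBj⟩ := h
  exact ⟨B, le_trans hT hBc, hBt, le_trans hBj hM⟩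

theorem refuteD_sound {L : ℕ} {ws : List (List ℕ × ℕ)} {doms : List (List (ℕ × ℕ) × ℕ)}
    {ts0 : List (ℕ × ℕ)}
    (hsd : (ts0.map Prod.fst).Pairwise (fun a b => b < a))
    (hws : ∀ wd ∈ ws, CoverValid L ts0 wd)
    (hdoms : ∀ d ∈ doms, ¬ TripleMatch L (items d.1) d.2) :
    ∀ (fuel : ℕ) (ts : List (ℕ × ℕ)) (T : ℕ), ts.map Prod.fst = ts0.map Prod.fst →
      items ts ≤ items ts0 → refuteD L ws doms fuel ts T = true →
      ¬ TripleMatch L (items ts) T := by
  have hnd : (ts0.map Prod.fst).Nodup := by
    apply List.Pairwise.imp _ hsd
    intro a b hab
    omega
  intro fuel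
  induction fuel with
  | zero =>
    intro ts T _ _ h
    simp [refuteD] at h
  | succ fuel ih =>
    intro ts T hf hle h
    cases T with
    | zero => simp [refuteD] at h
    | succ T' =>
      intro hTM
      rw [refuteD] at h
      rw [Bool.or_eq_true] at h
      rcases h with h | h
      · rw [List.any_eq_true] at h
        obtain ⟨d, hd, hd2⟩ := h
        rw [Bool.and_eq_true, Nat.ble_eq] at hd2
        exact hdoms d hd (tripleMatch_mono hTM (subT_le _ _ hd2.2) hd2.1)
      rw [Bool.or_eq_true] at h
      rcases h with h | h
      · obtain ⟨B, hBc, hBt, hBj⟩ := hTM
        rw [List.any_eq_true] at h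
        obtain ⟨wd, hwd, hlt⟩ := h
        have hlt' : dotT wd.1 ts < (T' + 1) * wd.2 := Nat.blt_eq.mp hlt
        have h1 : dotT wd.1 ts = Wt wd.1 ts0 (items ts) := dotT_eq_Wt wd.1 hnd hf
        have h2 : Wt wd.1 ts0 B.join ≤ Wt wd.1 ts0 (items ts) := Wt_le _ _ hBj
        have h3 : (B.map (Wt wd.1 ts0)).card • wd.2 ≤ (B.map (Wt wd.1 ts0)).sum := by
          apply Multiset.card_nsmul_le_sum
          intro x hx
          obtain ⟨b, hb, rfl⟩ := Multiset.mem_map.mp hx
          exact hws wd hwd b
            (le_trans (le_join_of_mem hb) (le_trans hBj hle)) (hBt b hb).1 (hBt b hb).2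
        rw [Multiset.card_map, smul_eq_mul, ← Wt_join] at h3
        have h4 : (T' + 1) * wd.2 ≤ B.card * wd.2 := Nat.mul_le_mul_right _ hBc
        omega
      · rw [force_eq] at h
        have hcardts : total ts = (items ts).card := total_eq_card ts
        cases hb1 : Nat.blt (total ts) (3 * (T' + 1)) with
        | true =>
          obtain ⟨B, hBc, hBt, hBj⟩ := hTM
          have hlt := Nat.blt_eq.mp hb1
          have hcj : B.join.card = 3 * B.card :=
            card_join_triples B (fun c hc => (hBt c hc).1)
          have hle2 : B.join.card ≤ (items ts).card := Multiset.card_le_card hBj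
          omega
        | false =>
          rw [hb1] at h
          simp only [cond_false] at h
          have hge : 3 * (T' + 1) ≤ total ts := by
            by_contra hcon
            have : Nat.blt (total ts) (3 * (T' + 1)) = true := Nat.blt_eq.mpr (by omega)
            rw [hb1] at this
            exact Bool.false_ne_true this
          cases hT : takeFirst ts with
          | none =>
            have h0 := takeFirst_none hT
            rw [h0] at hcardts
            simp at hcardts
            omega
          | some p =>
            obtain ⟨a, ts'⟩ := p
            rw [hT] at h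
            simp only at h
            obtain ⟨hf', hit⟩ := takeFirst_some hT
            have hsd' : (ts.map Prod.fst).Pairwise (fun a b => b < a) := by
              rw [hf]
              exact hsd
            have hmax := takeFirst_max hsd' hT
            have hle' : items ts' ≤ items ts0 := by
              refine le_trans ?_ hle
              rw [hit]
              exact Multiset.le_cons_self _ _
            have haM : a ∈ items ts := by
              rw [hit]
              exact Multiset.mem_cons_self _ _
            cases hb2 : Nat.blt (3 * (T' + 1)) (total ts) with
            | true =>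
              rw [hb2] at h
              simp only [cond_true] at h
              have hlt := Nat.blt_eq.mp hb2
              have hTM' := tripleMatch_erase_max hTM haM hmax (by omega)
              rw [hit, Multiset.erase_cons_head] at hTM'
              exact ih ts' (T' + 1) (hf'.trans hf) hle' h hTM'
            | false =>
              rw [hb2] at h
              simp only [cond_false] at h
              have heq : (items ts).card = 3 * (T' + 1) := by
                have : ¬ 3 * (T' + 1) < total ts := by
                  intro hcon
                  have : Nat.blt (3 * (T' + 1)) (total ts) = true := Nat.blt_eq.mpr hcon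
                  rw [hb2] at this
                  exact Bool.false_ne_true this
                omega
              obtain ⟨B, hBc, hBt, hBj⟩ := perfect_of_tripleMatch hTM heq
              have haB : a ∈ B.join := by
                rw [hBj]
                exact haM
              obtain ⟨b, hb, hab⟩ := Multiset.mem_join.mp haB
              obtain ⟨B', b', hb', hab', hc', hBt', hBj', hsw⟩ :=
                exists_swap_maximal hmax (L - b.sum) B b hb hab hBt hBj le_rfl
              obtain ⟨c, rfl⟩ := Multiset.exists_cons_of_mem hab'
              obtain ⟨hb3, hbL⟩ := hBt' _ hb'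
              rw [Multiset.card_cons] at hb3
              have hc2 : c.card = 2 := by omega
              obtain ⟨p, q, hpq⟩ := Multiset.card_eq_two.mp hc2
              have hex : ∃ y z : ℕ, z ≤ y ∧ c = y ::ₘ {z} := by
                rcases le_total q p with hqp | hpq'
                · exact ⟨p, q, hqp, hpq⟩
                · exact ⟨q, p, hpq', by rw [hpq, Multiset.pair_comm]; rfl⟩
              obtain ⟨y, z, hzy, rfl⟩ := hex
              have hj := join_eq_add_erase hb'
              rw [hBj', hit, Multiset.cons_add] at hj
              have hj2 : items ts' = y ::ₘ {z} + (B'.erase (a ::ₘ y ::ₘ {z})).join :=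
                (Multiset.cons_inj_right a).mp hj
              have hrest : (B'.erase (a ::ₘ y ::ₘ {z})).join = items ts' - y ::ₘ {z} := by
                rw [hj2]
                simp
              have hyz : y ::ₘ {z} ≤ items ts' := by
                rw [hj2]
                exact Multiset.le_add_right _ _
              have hymem : y ∈ items ts' :=
                Multiset.mem_of_le hyz (Multiset.mem_cons_self _ _)
              have hsum : a + y + z ≤ L := by
                simp only [Multiset.sum_cons, Multiset.sum_singleton] at hbL
                omega
              have hsd'' : (ts'.map Prod.fst).Pairwise (fun a b => b < a) := by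
                rw [hf']
                exact hsd'
              have hspec := goY_spec ts' [] h hsd'' (by simp) y z hymem hzy hyz hsum
              simp only [List.reverseAux] at hspec
              rcases hspec with ⟨x', hx', hx'2⟩ | ⟨res, hr1, hr2, hr3⟩
              · rw [← hrest] at hx'
                have hbs : (a ::ₘ y ::ₘ {z}).sum = a + y + z := by
                  simp only [Multiset.sum_cons, Multiset.sum_singleton]
                  omega
                rcases hx'2 with ⟨hlt, hfit⟩ | ⟨hlt, hfit⟩
                · have := hsw z (by simp) x' hx' hlt
                  omega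
                · have := hsw y (by simp) x' hx' hlt
                  omega
              · refine ih res T' (hr1.trans (hf'.trans hf)) ?_ hr3
                  ⟨B'.erase (a ::ₘ y ::ₘ {z}), ?_, ?_, ?_⟩
                · rw [hr2]
                  exact le_trans (Multiset.sub_le_self _ _) hle'
                · rw [Multiset.card_erase_of_mem hb', Nat.pred_eq_sub_one]
                  omega
                · intro c hc
                  exact hBt' c (Multiset.mem_of_mem_erase hc)
                · rw [hr2, hrest]

/-- All checks for refuting `T` disjoint fitting triples, as one kernel-evaluable Boolean.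
The types must be listed in strictly decreasing order of length. -/
def checkT (L : ℕ) (ws : List (List ℕ × ℕ)) (doms : List (List (ℕ × ℕ) × ℕ))
    (ts : List (ℕ × ℕ)) (fuel T : ℕ) : Bool :=
  sortedDesc ts && (ws.all (fun wd => validC3 L ts wd) && refuteD L ws doms fuel ts T)

/-- Soundness of `checkT`: the items of `ts` do not contain `T` disjoint fitting triples. -/
theorem not_tripleMatch_of_checkT {L : ℕ} {ws : List (List ℕ × ℕ)}
    {doms : List (List (ℕ × ℕ) × ℕ)} {ts : List (ℕ × ℕ)} {fuel T : ℕ}
    (hdoms : ∀ d ∈ doms, ¬ TripleMatch L (items d.1) d.2)
    (h : checkT L ws doms ts fuel T = true) : ¬ TripleMatch L (items ts) T := by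
  simp only [checkT, Bool.and_eq_true, List.all_eq_true] at h
  obtain ⟨hsd, hws, href⟩ := h
  have hsd' := sortedDesc_spec ts hsd
  have hnd : (ts.map Prod.fst).Nodup := by
    apply List.Pairwise.imp _ hsd'
    intro a b hab
    omega
  exact refuteD_sound hsd' (fun wd hwd => validC3_sound hnd (hws wd hwd)) hdoms fuel ts _ rfl
    le_rfl href

/-- All checks needed for the triple-matching route with the extended refuter, as one
kernel-evaluable Boolean.  The types must be listed in strictly decreasing order of length. -/
def checkD (L : ℕ) (ws : List (List ℕ × ℕ)) (doms : List (List (ℕ × ℕ) × ℕ))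
    (ts : List (ℕ × ℕ)) (fuel K : ℕ) : Bool :=
  ts.all (fun t => Nat.blt L (4 * t.1)) && checkT L ws doms ts fuel (total ts - 2 * K)

/-- Soundness of `checkD`: the items of `ts` cannot be packed into `K` bins of capacity `L`. -/
theorem not_packable_of_checkD {L : ℕ} {ws : List (List ℕ × ℕ)}
    {doms : List (List (ℕ × ℕ) × ℕ)} {ts : List (ℕ × ℕ)} {fuel K : ℕ}
    (hdoms : ∀ d ∈ doms, ¬ TripleMatch L (items d.1) d.2)
    (h : checkD L ws doms ts fuel K = true) : ¬ Packable L (items ts) K := by
  simp only [checkD, Bool.and_eq_true, List.all_eq_true, Nat.blt_eq] at h
  obtain ⟨hall, hchk⟩ := h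
  intro hp
  have hbig : ∀ x ∈ items ts, L < 4 * x := by
    intro x hx
    obtain ⟨t, ht, rfl⟩ := List.mem_map.mp (mem_items hx)
    exact hall t ht
  have htm := tripleMatch_of_packable hbig hp
  rw [← total_eq_card] at htm
  exact not_tripleMatch_of_checkT hdoms hchk htm

/-- The empty list of sub-instances. -/
theorem doms_nil {L : ℕ} :
    ∀ d ∈ ([] : List (List (ℕ × ℕ) × ℕ)), ¬ TripleMatch L (items d.1) d.2 :=
  fun _ h => absurd h List.not_mem_nil

/-- Adding one refuted sub-instance to a list of refuted sub-instances. -/
theorem doms_cons {L : ℕ} {R : List (ℕ × ℕ)} {T₀ : ℕ} {doms : List (List (ℕ × ℕ) × ℕ)}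
    (h : ¬ TripleMatch L (items R) T₀) (hs : ∀ d ∈ doms, ¬ TripleMatch L (items d.1) d.2) :
    ∀ d ∈ (R, T₀) :: doms, ¬ TripleMatch L (items d.1) d.2 := by
  intro d hd
  rcases List.mem_cons.mp hd with rfl | hd
  · exact h
  · exact hs d hd

end Vale.Agent.Lib.P302.helper92
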