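import Vale.Agent.Lib.P302.helper92.Dom

/-!
Transfer of triple-matching refutations between two instances with the same multiplicities:
if replacing the `i`-th length of `ts` by the `i`-th length of `ts'` turns every fitting triple
of `ts` into a fitting triple of `ts'`, then disjoint fitting triples of `ts` give disjoint
fitting triples of `ts'`.
-/

namespace Vale.Agent.Lib.P302.helper92

open Vale.Agent.Lib.P302.helper49

/-- Replace the `i`-th length of the first list by the `i`-th length of the second list. -/
def relab : List (ℕ × ℕ) → List (ℕ × ℕ) → ℕ → ℕ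
  | (s, _) :: r, (s', _) :: r', x => if x = s then s' else relab r r' x
  | _, _, x => x

/-- The weights `C - s'` for the lengths `s'` of the second list. -/
def relabW (C : ℕ) (ts' : List (ℕ × ℕ)) : List ℕ := ts'.map (fun t => C - t.1)

/-- The two lists have the same length and the same multiplicities, position by position. -/
def sameMult : List (ℕ × ℕ) → List (ℕ × ℕ) → Bool
  | [], [] => true
  | (_, n) :: r, (_, n') :: r' => Nat.beq n n' && sameMult r r'
  | _, _ => false

theorem Wt_single_notMem : ∀ (w : List ℕ) (r : List (ℕ × ℕ)) (a : ℕ),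
    a ∉ r.map Prod.fst → Wt w r {a} = 0
  | _, [], _ => fun _ => by simp [Wt, dotT]
  | [], _ :: _, _ => fun _ => by simp [Wt, dotT]
  | c :: w, (s, n) :: r, a => fun h => by
    rw [List.map_cons, List.mem_cons, not_or] at h
    have ih := Wt_single_notMem w r a h.2
    have hne : ¬ s = a := fun e => h.1 e.symm
    simp only [Wt, List.map_cons, dotT, Multiset.count_singleton] at ih ⊢
    rw [if_neg hne, ih]
    omega

theorem Wt_single_relab (C : ℕ) : ∀ (ts ts' : List (ℕ × ℕ)) (a : ℕ),
    (ts.map Prod.fst).Nodup → sameMult ts ts' = true → (∀ t ∈ ts', t.1 ≤ C) →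
    a ∈ ts.map Prod.fst → Wt (relabW C ts') ts {a} + relab ts ts' a = C
  | [], _, _ => fun _ _ _ h => by simp at h
  | (s, n) :: r, [], _ => fun _ h _ _ => by simp [sameMult] at h
  | (s, n) :: r, (s', n') :: r', a => fun hnd hsm hC ha => by
    rw [List.map_cons, List.nodup_cons] at hnd
    simp only [sameMult, Bool.and_eq_true] at hsm
    have hs' : s' ≤ C := hC (s', n') (by simp)
    have hC' : ∀ t ∈ r', t.1 ≤ C := fun t ht => hC t (List.mem_cons_of_mem _ ht)
    by_cases has : a = s
    · subst has
      have h0 := Wt_single_notMem (relabW C r') r a hnd.1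
      simp only [Wt, relabW, List.map_cons, dotT, Multiset.count_singleton, relab] at h0 ⊢
      rw [h0]
      simp only [if_true]
      omega
    · have har : a ∈ r.map Prod.fst := by
        rw [List.map_cons, List.mem_cons] at ha
        rcases ha with ha | ha
        · exact absurd ha has
        · exact ha
      have ih := Wt_single_relab C r r' a hnd.2 hsm.2 hC' har
      have hne : ¬ s = a := fun e => has e.symm
      simp only [Wt, relabW, List.map_cons, dotT, Multiset.count_singleton, relab] at ih ⊢
      rw [if_neg hne, if_neg has]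
      omega

theorem Wt_relab_sum (C : ℕ) {ts ts' : List (ℕ × ℕ)} (hnd : (ts.map Prod.fst).Nodup)
    (hsm : sameMult ts ts' = true) (hC : ∀ t ∈ ts', t.1 ≤ C) :
    ∀ b : Multiset ℕ, b ≤ items ts →
      Wt (relabW C ts') ts b + (b.map (relab ts ts')).sum = C * b.card := by
  intro b
  induction b using Multiset.induction_on with
  | empty => intro _; simp [Wt_zero]
  | cons a b ih =>
    intro hle
    have hb : b ≤ items ts := le_trans (Multiset.le_cons_self b a) hle
    have ha : a ∈ ts.map Prod.fst :=
      mem_items (Multiset.mem_of_le hle (Multiset.mem_cons_self a b))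
    have h1 := ih hb
    have h2 := Wt_single_relab C ts ts' a hnd hsm hC ha
    rw [← Multiset.singleton_add, Wt_add, Multiset.map_add, Multiset.sum_add,
      Multiset.card_add, Multiset.map_singleton, Multiset.sum_singleton,
      Multiset.card_singleton, Nat.mul_add]
    omega

theorem items_relab : ∀ (ts ts' : List (ℕ × ℕ)), (ts.map Prod.fst).Nodup →
    sameMult ts ts' = true → (items ts).map (relab ts ts') = items ts'
  | [], [] => fun _ _ => by simp
  | [], _ :: _ => fun _ h => by simp [sameMult] at h
  | (s, n) :: r, [] => fun _ h => by simp [sameMult] at h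
  | (s, n) :: r, (s', n') :: r' => fun hnd hsm => by
    rw [List.map_cons, List.nodup_cons] at hnd
    simp only [sameMult, Bool.and_eq_true, Nat.beq_eq] at hsm
    obtain ⟨rfl, hsm2⟩ := hsm
    have ih := items_relab r r' hnd.2 hsm2
    rw [items_cons, items_cons, Multiset.map_add, Multiset.map_replicate]
    have e1 : relab ((s, n) :: r) ((s', n) :: r') s = s' := by simp [relab]
    have e2 : (items r).map (relab ((s, n) :: r) ((s', n) :: r')) = (items r).map (relab r r') := by
      apply Multiset.map_congr rfl
      intro x hx
      have hxs : x ≠ s := by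
        rintro rfl
        exact hnd.1 (mem_items hx)
      simp [relab, hxs]
    rw [e1, e2, ih]

/-- Disjoint fitting triples of `ts` are carried to disjoint fitting triples of `ts'`. -/
theorem tripleMatch_relabel {L L' T : ℕ} {ts ts' : List (ℕ × ℕ)}
    (hnd : (ts.map Prod.fst).Nodup) (hsm : sameMult ts ts' = true)
    (hC : ∀ t ∈ ts', t.1 ≤ L') (hcv : CoverValid L ts (relabW L' ts', 2 * L'))
    (h : TripleMatch L (items ts) T) : TripleMatch L' (items ts') T := by
  obtain ⟨B, hBc, hBt, hBj⟩ := h
  refine ⟨B.map (Multiset.map (relab ts ts')), by rw [Multiset.card_map]; exact hBc, ?_, ?_⟩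
  · intro b hb
    obtain ⟨b0, hb0, rfl⟩ := Multiset.mem_map.mp hb
    obtain ⟨h3, hs⟩ := hBt b0 hb0
    have hle : b0 ≤ items ts := le_trans (le_join_of_mem hb0) hBj
    refine ⟨by rw [Multiset.card_map]; exact h3, ?_⟩
    have hw : 2 * L' ≤ Wt (relabW L' ts') ts b0 := hcv b0 hle h3 hs
    have hid := Wt_relab_sum L' hnd hsm hC b0 hle
    rw [h3] at hid
    omega
  · rw [← items_relab ts ts' hnd hsm, ← Multiset.map_join]
    exact Multiset.map_le_map hBj

/-- Kernel-evaluable test for `tripleMatch_relabel`. -/
def checkRelabel (L L' : ℕ) (ts ts' : List (ℕ × ℕ)) : Bool :=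
  sortedDesc ts && (sameMult ts ts' && (ts'.all (fun t => Nat.ble t.1 L') &&
    validC3 L ts (relabW L' ts', 2 * L')))

/-- If the relabelled instance `ts'` has no `T` disjoint fitting triples, neither has `ts`. -/
theorem not_tripleMatch_of_relabel {L L' T : ℕ} {ts ts' : List (ℕ × ℕ)}
    (h : checkRelabel L L' ts ts' = true) (h' : ¬ TripleMatch L' (items ts') T) :
    ¬ TripleMatch L (items ts) T := by
  simp only [checkRelabel, Bool.and_eq_true, List.all_eq_true, Nat.ble_eq] at h
  obtain ⟨hsd, hsm, hC, hv⟩ := h
  have hsd' := sortedDesc_spec ts hsd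
  have hnd : (ts.map Prod.fst).Nodup := by
    apply List.Pairwise.imp _ hsd'
    intro a b hab
    omega
  exact fun hTM => h' (tripleMatch_relabel hnd hsm hC (validC3_sound hnd hv) hTM)

end Vale.Agent.Lib.P302.helper92
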